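import Vale.Agent.P304.Main

/-!
# P304 (randomized k-server): the bounded-space ratio is nondecreasing in k
-/

namespace Vale.Agent.Results.P304.MoreServers

open Vale.Agent.P304
open scoped ENNReal

/-- (1) Adding to a bounded metric space one point at distance `D` (an upper bound of all
distances) from all others, with one more server that starts there, never lowers the randomized
competitive ratio. (2) The supremum `Rb k` of the ratios over bounded metric spaces is
nondecreasing in `k`. (3) A polylogarithmic bound for `R` along a sequence `K i` with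
`K (i + 1) ≤ K i ^ q` gives one for `Rb k` for all `k ≥ 2`, with the same power of `log k`. -/
theorem result :
    (∀ (X : Type) (d : X → X → ℝ) (D : ℝ), IsMetric d → 0 < D → (∀ x y, d x y ≤ D) →
      ∀ (n : ℕ) (s : Fin (n + 1) → X), rho d s ≤ rho (ext d D) (exts s)) ∧
    (∀ k l : ℕ, 1 ≤ k → k ≤ l → Rb k ≤ Rb l ∧ Rb k ≤ R l) ∧
    (∀ (C : ℝ) (m q : ℕ) (K : ℕ → ℕ), 0 ≤ C → (∀ i, 2 ≤ K i) → (∀ N, ∃ i, N ≤ K i) →
      (∀ i, K (i + 1) ≤ K i ^ q) →
      (∀ i, R (K i) ≤ ENNReal.ofReal (C * Real.log (K i) ^ m)) →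
      ∃ C' : ℝ, ∀ k, 2 ≤ k → Rb k ≤ ENNReal.ofReal (C' * Real.log k ^ m)) :=
  ⟨fun _ _ _ hd h0 hD _ s => rho_le hd h0 hD s,
    fun _ l hk hkl => ⟨Rb_mono hk hkl, (Rb_mono hk hkl).trans (Rb_le_R l)⟩,
    fun C m q K hC hK2 hunb hK hR => polylog_of_sparse C hC m q K hK2 hunb hK hR⟩

end Vale.Agent.Results.P304.MoreServers
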