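import Vale.Agent.P304.Ray

/-!
# P304 (randomized k-server): the ratio and one more server
-/

namespace Vale.Agent.Results.P304.MoreServersAll

open Vale.Agent.P304
open scoped ENNReal

/-- (1) `R k ≤ 2 R (k + 1)` over ALL metric spaces: one more server lowers the worst randomized
ratio by a factor two at most. (2) Over bounded metric spaces nothing is lost: `Rb` is
nondecreasing, and adding to one space a point at distance `D` (a bound for all distances) with
one more server there never lowers the ratio. (3) A polylogarithmic bound for `R` along a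
sequence `K i` with `K (i + 1) ≤ K i ^ q` gives one for `Rb k` for all `k ≥ 2`. -/
theorem result :
    (∀ k : ℕ, 1 ≤ k → R k ≤ 2 * R (k + 1)) ∧
    (∀ k l : ℕ, 1 ≤ k → k ≤ l → Rb k ≤ Rb l ∧ Rb k ≤ R l) ∧
    (∀ (X : Type) (d : X → X → ℝ) (D : ℝ), IsMetric d → 0 < D → (∀ x y, d x y ≤ D) →
      ∀ (n : ℕ) (s : Fin (n + 1) → X), rho d s ≤ rho (ext d D) (exts s)) ∧
    (∀ (C : ℝ) (m q : ℕ) (K : ℕ → ℕ), 0 ≤ C → (∀ i, 2 ≤ K i) → (∀ N, ∃ i, N ≤ K i) →
      (∀ i, K (i + 1) ≤ K i ^ q) →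
      (∀ i, R (K i) ≤ ENNReal.ofReal (C * Real.log (K i) ^ m)) →
      ∃ C' : ℝ, ∀ k, 2 ≤ k → Rb k ≤ ENNReal.ofReal (C' * Real.log k ^ m)) := by
  refine ⟨fun k hk => ?_, fun k l hk hkl => ⟨Rb_mono hk hkl, (Rb_mono hk hkl).trans (Rb_le_R l)⟩,
    fun _ _ _ hd h0 hD _ s => rho_le hd h0 hD s,
    fun C m q K hC hK2 hunb hK hR => polylog_of_sparse C hC m q K hK2 hunb hK hR⟩
  obtain ⟨n, rfl⟩ : ∃ n, k = n + 1 := ⟨k - 1, by omega⟩
  exact R_succ n

end Vale.Agent.Results.P304.MoreServersAll
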